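import Vale.Agent.P046.Full.Main
import Vale.Agent.P046.Full.Track
import Vale.Agent.P046.Full.GapStep
import Vale.Agent.P046.Full.Trees
import Vale.Agent.P046.Full.FlowStep
import Vale.Agent.P046.Full.Iter
import Vale.Agent.P046.Full.LocalStep

/-!
Random triangle removal from `K_n` leaves `(1 / (2 sqrt 2) + o(1)) n ^ (3/2)` edges.
-/

namespace Vale.Agent.Results.P046.LeaveConstant

open Filter Topology
open Vale.Agent.P046
open scoped Classical

theorem result :
    (∀ ε : ℝ, 0 < ε → Tendsto (fun n : ℕ => Ev (fun H =>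
      if ε < |(H.card : ℝ) / (n : ℝ) ^ (3 / 2 : ℝ) - 1 / (2 * Real.sqrt 2)| then 1 else 0)
        (completeEdges n)) atTop (𝓝 0)) ∧
      Tendsto (fun n : ℕ => Ev (fun H => (H.card : ℝ)) (completeEdges n) / (n : ℝ) ^ (3 / 2 : ℝ))
        atTop (𝓝 (1 / (2 * Real.sqrt 2))) :=
  Full.main_of_steps Full.trackStep Full.gapStep Full.treeStep Full.flowStep Full.iterStep
    Full.localStep

end Vale.Agent.Results.P046.LeaveConstant
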